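import Vale.Agent.P202.Zero.Jets
import Vale.Agent.P202.NC.Witness
import Vale.Agent.P202.NC.Hilbert
import Vale.Agent.P202.Main.RingFacts

/-!
# P202, equal characteristic zero: colengths of powers of a system of parameters

A colength of powers of parameters bounds the multiplicity from above; for large powers it is
strictly below one more than the multiplicity symbol times the number of monomials in the box.
-/

noncomputable section

namespace Vale.Agent.P202.Zero

open IsLocalRing Filter Topology
open scoped ENNReal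

universe u

section Ring

variable {k : Type u} [Field k] {S : Type u} [CommRing S] [Algebra k S] {d : ℕ}

/-- Powers of parameters have finite colength. -/
theorem finite_quot_span_powers [IsNoetherianRing S] (y : Fin d → S)
    [Module.Finite k (S ⧸ Ideal.span (Set.range y))] (N : ℕ) :
    Module.Finite k (S ⧸ Ideal.span (Set.range fun i => y i ^ N)) := by
  have := Vale.Agent.P202.finite_quot_pow (k := k) (Ideal.span (Set.range y)) (d * N + 1)
  exact finite_quot_of_le (span_pow_le_span_pow y N)

variable [IsLocalRing S]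

/-- An ideal of finite colength contains a power of the maximal ideal. -/
theorem exists_pow_le_of_finite [IsNoetherianRing S] (J : Ideal S) [Module.Finite k (S ⧸ J)] :
    ∃ r, maximalIdeal S ^ r ≤ J := by
  have : IsArtinian S (S ⧸ J) := isArtinian_of_tower k inferInstance
  obtain ⟨r, hr⟩ := IsArtinian.monotone_stabilizes
    (⟨fun n => OrderDual.toDual (maximalIdeal S ^ n • (⊤ : Submodule S (S ⧸ J))),
      fun a b hab => Submodule.smul_mono_left (Ideal.pow_le_pow_right hab)⟩ :
      ℕ →o (Submodule S (S ⧸ J))ᵒᵈ)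
  have h0 : maximalIdeal S ^ r • (⊤ : Submodule S (S ⧸ J)) = ⊥ := by
    refine Submodule.eq_bot_of_le_smul_of_le_jacobson_bot (maximalIdeal S) _
      (IsNoetherian.noetherian _) ?_ (maximalIdeal_le_jacobson _)
    rw [← Submodule.mul_smul, ← pow_succ']
    exact (OrderDual.toDual.injective (hr (r + 1) r.le_succ)).le
  refine ⟨r, fun a ha => ?_⟩
  have h1 : a • Ideal.Quotient.mk J 1 ∈ maximalIdeal S ^ r • (⊤ : Submodule S (S ⧸ J)) :=
    Submodule.smul_mem_smul ha Submodule.mem_top
  rw [h0, Submodule.mem_bot, ← Ideal.Quotient.eq_zero_iff_mem.eq] at *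
  simpa [Algebra.smul_def] using h1

/-- The length of a quotient of finite dimension is the dimension. -/
theorem length_eq_finrank_of_hres (hres : ∀ a : S, ∃ c, a - algebraMap k S c ∈ maximalIdeal S)
    (M : Type u) [AddCommGroup M] [Module k M] [Module S M] [IsScalarTower k S M]
    [Module.Finite k M] : Module.length S M = (Module.finrank k M : ℕ∞) := by
  have h1 : Module.length k (ResidueField S) = 1 := by
    rw [Module.length_eq_of_surjective (R := ResidueField S) fun q => ?_]
    · exact Module.length_eq_one _ _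
    · obtain ⟨a, rfl⟩ := residue_surjective q
      obtain ⟨c, hc⟩ := hres a
      refine ⟨c, ?_⟩
      rw [IsScalarTower.algebraMap_apply k S (ResidueField S), ResidueField.algebraMap_eq, eq_comm,
        ← sub_eq_zero, ← map_sub, residue_eq_zero_iff]
      exact hc
  rw [← Module.length_eq_finrank, length_field_eq_mul (k := k) (B := S) M, h1, mul_one]

/-- The multiplicity is at most a colength of powers of parameters over the number of monomials
in the box. -/
theorem liminf_hsSeq_le_finrank (hres : ∀ a : S, ∃ c, a - algebraMap k S c ∈ maximalIdeal S)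
    (hd : dimNat S = d) (y : Fin d → S) (hy : ∀ i, y i ∈ maximalIdeal S) {N : ℕ} (hN : 1 ≤ N)
    [Module.Finite k (S ⧸ Ideal.span (Set.range fun i => y i ^ N))] :
    liminf (hsSeq S) atTop ≤
      (Module.finrank k (S ⧸ Ideal.span (Set.range fun i => y i ^ N)) : ℝ≥0∞) /
        (N : ℝ≥0∞) ^ d := by
  set J := Ideal.span (Set.range fun i => y i ^ N)
  set e := Module.finrank k (S ⧸ J)
  have hJ : Module.length S (S ⧸ J) = (e : ℕ∞) := length_eq_finrank_of_hres hres _
  have hJm : J ≤ maximalIdeal S ^ N := by
    rw [Ideal.span_le]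
    rintro _ ⟨i, rfl⟩
    exact Ideal.pow_mem_pow (hy i) N
  have hN0 : (N : ℝ≥0∞) ≠ 0 := by exact_mod_cast (show N ≠ 0 by omega)
  have hb : ∀ j : ℕ, hsSeq S (N * j) ≤
      (e : ℝ≥0∞) / (N : ℝ≥0∞) ^ d * (((j + d : ℕ) : ℝ≥0∞) ^ d / (j : ℝ≥0∞) ^ d) := by
    intro j
    have h1 : Module.length S (S ⧸ maximalIdeal S ^ (N * j)) ≤ ((monCount d j * e : ℕ) : ℕ∞) := by
      refine (length_quotient_mono (B := J ^ j) (by rw [pow_mul]; exact Ideal.pow_right_mono hJm j)).trans ?_
      refine (length_quotient_span_pow_le (fun i => y i ^ N) j).trans ?_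
      rw [show Ideal.span (Set.range fun i => y i ^ N) = J from rfl, hJ, Nat.cast_mul]
    rw [hsSeq, hd, Nat.cast_mul, mul_pow,
      ← ENNReal.mul_div_mul_comm (Or.inl (pow_ne_zero d hN0))
        (Or.inl (ENNReal.pow_ne_top (ENNReal.natCast_ne_top N)))]
    refine ENNReal.div_le_div_right ?_ _
    refine (mul_le_mul' le_rfl (ENat.toENNReal_le.2 h1)).trans ?_
    simp only [ENat.toENNReal_coe]
    have : d.factorial * (monCount d j * e) ≤ e * (j + d) ^ d := by
      rw [← mul_assoc, mul_comm e]
      exact Nat.mul_le_mul_right e (factorial_mul_monCount_le d j)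
    exact_mod_cast this
  have hlim := ENNReal.Tendsto.const_mul (tendsto_add_pow_div_pow d d)
    (a := (e : ℝ≥0∞) / (N : ℝ≥0∞) ^ d) (Or.inl one_ne_zero)
  rw [mul_one] at hlim
  have hsub : Tendsto (fun j : ℕ => N * j) atTop atTop :=
    tendsto_atTop_mono (fun j => Nat.le_mul_of_pos_left j hN) tendsto_id
  calc liminf (hsSeq S) atTop ≤ liminf (hsSeq S) (map (fun j => N * j) atTop) :=
        liminf_le_liminf_of_le hsub
    _ = liminf (fun j => hsSeq S (N * j)) atTop := (liminf_comp _ _ _).symm
    _ ≤ _ := (liminf_le_liminf (Eventually.of_forall hb)).trans hlim.liminf_eq.le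

end Ring

section PowerSeries

variable {k : Type u} [Field k] {d : ℕ}

theorem residue_powerSeries (F : PS k d) :
    ∃ c, F - algebraMap k (PS k d) c ∈ maximalIdeal (PS k d) := by
  refine ⟨MvPowerSeries.constantCoeff F, ?_⟩
  rw [maximalIdeal_mvPowerSeries]
  simpa [MvPowerSeries.algebraMap_apply] using sub_C_constantCoeff_mem_span_X F

/-- The colength of the powers of the variables is at most the size of the box. -/
theorem finrank_quot_box (N : ℕ) :
    Module.Finite k (PS k d ⧸ Ideal.span (Set.range fun i : Fin d =>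
        (MvPowerSeries.X i : PS k d) ^ N)) ∧
      Module.finrank k (PS k d ⧸ Ideal.span (Set.range fun i : Fin d =>
        (MvPowerSeries.X i : PS k d) ^ N)) ≤ N ^ d := by
  classical
  set J := Ideal.span (Set.range fun i : Fin d => (MvPowerSeries.X i : PS k d) ^ N)
  let t : (Fin d → Fin N) → (Fin d →₀ ℕ) := fun b =>
    Finsupp.equivFunOnFinite.symm fun i => (b i : ℕ)
  let T : ((Fin d → Fin N) → k) →ₗ[k] PS k d ⧸ J :=
    Fintype.linearCombination k fun b => Ideal.Quotient.mk J (MvPowerSeries.monomial (t b) 1)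
  have hT : Function.Surjective T := by
    intro q
    obtain ⟨F, rfl⟩ := Ideal.Quotient.mk_surjective q
    set P : PS k d := ∑ e ∈ lowExp d (d * N + 1),
      MvPowerSeries.monomial e (MvPowerSeries.coeff e F) with hP
    have hFP : F - P ∈ J := by
      refine span_pow_le_span_pow (fun i : Fin d => (MvPowerSeries.X i : PS k d)) N
        (mem_span_X_pow fun e he => ?_)
      rw [map_sub, hP, map_sum]
      simp [MvPowerSeries.coeff_monomial, mem_lowExp.2 he]
    rw [Ideal.Quotient.eq.2 hFP, hP, map_sum]
    refine Submodule.sum_mem (LinearMap.range T) fun e _ => ?_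
    by_cases hbox : ∀ i, e i < N
    · refine ⟨Pi.single (fun i => ⟨e i, hbox i⟩) (MvPowerSeries.coeff e F), ?_⟩
      rw [Fintype.linearCombination_apply_single]
      have ht : t (fun i => ⟨e i, hbox i⟩) = e := Finsupp.ext fun i => rfl
      rw [ht]
      show _ • Ideal.Quotient.mkₐ k J _ = Ideal.Quotient.mkₐ k J _
      rw [← map_smul, ← map_smul, smul_eq_mul, mul_one]
    · push Not at hbox
      obtain ⟨i, hi⟩ := hbox
      suffices h : MvPowerSeries.monomial e (MvPowerSeries.coeff e F) ∈ J by
        rw [Ideal.Quotient.eq_zero_iff_mem.2 h]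
        exact zero_mem _
      have hle : Finsupp.single i N ≤ e := Finsupp.single_le_iff.2 hi
      rw [← add_tsub_cancel_of_le hle, ← one_mul (MvPowerSeries.coeff _ F),
        ← MvPowerSeries.monomial_mul_monomial, ← MvPowerSeries.X_pow_eq]
      exact Ideal.mul_mem_right _ _ (Ideal.subset_span ⟨i, rfl⟩)
  refine ⟨Module.Finite.of_surjective T hT,
    (LinearMap.finrank_le_finrank_of_surjective hT).trans (le_of_eq ?_)⟩
  rw [Module.finrank_fintype_fun_eq_card, Fintype.card_fun, Fintype.card_fin, Fintype.card_fin]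

/-- A finite module over power series modulo powers of the variables. -/
theorem exists_finrank_quot_box_le (M : Type u) [AddCommGroup M] [Module (PS k d) M]
    [Module.Finite (PS k d) M] [Module k M] [IsScalarTower k (PS k d) M] :
    ∃ C : ℕ, ∀ N : ℕ,
      Module.finrank k (M ⧸ (Ideal.span (Set.range fun i : Fin d =>
          (MvPowerSeries.X i : PS k d) ^ N) • ⊤ : Submodule (PS k d) M)) ≤
        Module.finrank (PS k d) M * N ^ d + C * (d * (d * N + 1 + 1) ^ (d - 1)) := by
  classical
  have : IsDomain (PS k d) := NoZeroDivisors.to_isDomain _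
  obtain ⟨c, α, β, hc, hαβ, -⟩ := NC.exists_free_comparison (PS k d) M
  generalize Module.finrank (PS k d) M = e at α β hαβ ⊢
  obtain ⟨C, hC⟩ := NC.exists_length_sup_pow_le hc
  obtain ⟨g, w, hw⟩ := Submodule.fg_iff_exists_fin_generating_family.1
    (Module.Finite.fg_top (R := (PS k d)) (M := M))
  refine ⟨g * C, fun N => ?_⟩
  set J := Ideal.span (Set.range fun i : Fin d => (MvPowerSeries.X i : PS k d) ^ N)
  set U : Submodule (PS k d) M := J • ⊤
  have hmem : ∀ (a : (PS k d)), a ∈ J → ∀ m : M, a • m ∈ U := fun a ha m =>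
    Submodule.smul_mem_smul ha Submodule.mem_top
  let f : (Fin e → (PS k d) ⧸ J) →ₗ[(PS k d)] M ⧸ U :=
    LinearMap.lsum (PS k d) (fun _ : Fin e => (PS k d) ⧸ J) (PS k d) fun i =>
      J.liftQ ((U.mkQ.comp α).comp (LinearMap.single (PS k d) (fun _ : Fin e => PS k d) i)) fun a ha => by
        rw [LinearMap.mem_ker]
        show U.mkQ (α (Pi.single i a)) = 0
        rw [show (Pi.single i a : Fin e → PS k d) = a • Pi.single i 1 by
          rw [← Pi.single_smul, smul_eq_mul, mul_one], map_smul]
        exact (Submodule.Quotient.mk_eq_zero _).2 (hmem a ha _)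
  have hfc : ∀ v : Fin e → PS k d, U.mkQ (α v) ∈ LinearMap.range f := fun v => by
    refine ⟨fun i => Submodule.Quotient.mk (v i), ?_⟩
    simp only [f, LinearMap.lsum_apply, LinearMap.sum_apply, LinearMap.comp_apply,
      LinearMap.proj_apply, Submodule.liftQ_apply, LinearMap.coe_single]
    rw [← map_sum, ← map_sum, Finset.univ_sum_single]
  have hfin := finrank_quot_box (k := k) (d := d) N
  have := hfin.1
  have h := NC.length_le_of_range f (Ideal.span {c} ⊔ J)
    (fun i => (Submodule.Quotient.mk (w i) : M ⧸ U)) (by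
      have hr : Set.range (fun i => (Submodule.Quotient.mk (w i) : M ⧸ U)) = U.mkQ '' Set.range w :=
        by rw [← Set.range_comp]; rfl
      rw [hr, ← Submodule.map_span, hw, Submodule.map_top, Submodule.range_mkQ])
    (fun a ha b => by
      obtain ⟨m, rfl⟩ := Submodule.Quotient.mk_surjective _ b
      obtain ⟨a₁, ha₁, a₂, ha₂, rfl⟩ := Submodule.mem_sup.1 ha
      obtain ⟨r, rfl⟩ := Ideal.mem_span_singleton'.1 ha₁
      rw [add_smul, mul_smul, ← Submodule.Quotient.mk_smul _ a₂,
        (Submodule.Quotient.mk_eq_zero U).2 (hmem a₂ ha₂ m), add_zero, ← Submodule.Quotient.mk_smul,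
        ← hαβ m]
      exact Submodule.smul_mem _ r (hfc (β m)))
  have h1 : Module.length (PS k d) (Fin e → (PS k d) ⧸ J) ≤ ((e * N ^ d : ℕ) : ℕ∞) := by
    rw [Module.length_pi, ENat.card_eq_coe_fintype_card, Fintype.card_fin, Nat.cast_mul,
      length_eq_finrank_of_hres (k := k) residue_powerSeries]
    exact mul_le_mul' le_rfl (Nat.cast_le.2 hfin.2)
  have h2 : Module.length (PS k d) (PS k d ⧸ (Ideal.span {c} ⊔ J)) ≤
      ((C * (d * (d * N + 1 + 1) ^ (d - 1)) : ℕ) : ℕ∞) := by
    refine (length_quotient_mono (sup_le_sup_left ?_ _)).trans (hC (d * N + 1))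
    rw [maximalIdeal_mvPowerSeries]
    exact span_pow_le_span_pow _ N
  have h3 := h.trans (add_le_add h1 (mul_le_mul' le_rfl h2))
  rw [finrank_eq_length_of_residue_surjective (B := PS k d) fun q => ?_]
  · refine ENat.toNat_le_of_le_natCast (h3.trans (le_of_eq ?_))
    push_cast
    ring
  · obtain ⟨F, rfl⟩ := residue_surjective q
    obtain ⟨x, hx⟩ := residue_powerSeries F
    refine ⟨x, ?_⟩
    rw [RingHom.comp_apply, eq_comm, ← sub_eq_zero, ← map_sub, residue_eq_zero_iff]
    exact hx

/-- The error term is eventually less than the size of the box. -/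
theorem eventually_error_lt (C d : ℕ) :
    ∀ᶠ N : ℕ in atTop, C * (d * (d * N + 1 + 1) ^ (d - 1)) < N ^ d := by
  rcases d with _ | e
  · exact Eventually.of_forall fun N => by simp
  refine eventually_atTop.2 ⟨C * ((e + 1) * (e + 3) ^ e) + 1, fun N hN => ?_⟩
  calc C * ((e + 1) * ((e + 1) * N + 1 + 1) ^ (e + 1 - 1))
      ≤ C * ((e + 1) * ((e + 3) * N) ^ e) := by
        rw [Nat.add_sub_cancel]
        gcongr
        nlinarith [show 1 ≤ N by omega]
    _ = C * ((e + 1) * (e + 3) ^ e) * N ^ e := by rw [mul_pow]; ring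
    _ < N * N ^ e := Nat.mul_lt_mul_of_pos_right (by omega) (pow_pos (by omega) e)
    _ = N ^ (e + 1) := by rw [pow_succ, mul_comm]

end PowerSeries

section Complete

variable {k : Type u} [Field k] {S : Type u} [CommRing S] [Algebra k S] [IsLocalRing S]
  [IsNoetherianRing S] {d : ℕ}

/-- For a complete ring the colengths of large powers of parameters are less than one more than
the multiplicity symbol times the size of the box. -/
theorem eventually_finrank_lt [IsAdicComplete (maximalIdeal S) S]
    (hres : ∀ a : S, ∃ c, a - algebraMap k S c ∈ maximalIdeal S)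
    (y : Fin d → S) (hy : ∀ i, y i ∈ maximalIdeal S)
    [Module.Finite k (S ⧸ Ideal.span (Set.range y))] {L : ℕ}
    (hL : emult k (List.ofFn y) S = L) :
    ∀ᶠ N : ℕ in atTop,
      Module.finrank k (S ⧸ Ideal.span (Set.range fun i => y i ^ N)) < (L + 1) * N ^ d := by
  obtain ⟨φ, hC, hX, -⟩ := exists_evalHom (algebraMap k S) y hy
  obtain ⟨r, hr⟩ := exists_pow_le_of_finite (k := k) (Ideal.span (Set.range y))
  have hspan : (fun i => φ (MvPowerSeries.X i)) = y := funext hX
  have hφ : φ.Finite := finite_of_powerSeriesHom φ (fun a => by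
      obtain ⟨c, hc⟩ := hres a
      exact ⟨c, by rw [hC]; exact hc⟩)
    (fun i => by rw [hX]; exact hy i) (r := r) (by rw [hspan]; exact hr)
  let algφ : Algebra (PS k d) S := φ.toAlgebra
  have : Module.Finite (PS k d) S := hφ
  have : IsScalarTower k (PS k d) S := IsScalarTower.of_algebraMap_eq fun c => (hC c).symm
  have hrank : Module.finrank (PS k d) S = L := by
    have h := emult_eq_finrank_powerSeries (k := k) (d := d) (R := S)
    rw [RingHom.algebraMap_toAlgebra, hspan, hL] at h
    exact_mod_cast h.symm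
  obtain ⟨C, hb⟩ := exists_finrank_quot_box_le (k := k) (d := d) S
  rw [hrank] at hb
  filter_upwards [eventually_error_lt C d] with N hN
  have hJ : (Ideal.span (Set.range fun i : Fin d => (MvPowerSeries.X i : PS k d) ^ N) • ⊤ :
      Submodule (PS k d) S) =
        (Ideal.span (Set.range fun i => y i ^ N)).restrictScalars (PS k d) := by
    rw [Ideal.smul_top_eq_map, RingHom.algebraMap_toAlgebra, Ideal.map_span, ← Set.range_comp]
    congr 3
    funext i
    simp [hX]
  have he := (((Submodule.quotEquivOfEq _ _ hJ).trans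
    (Submodule.Quotient.restrictScalarsEquiv (PS k d)
      (Ideal.span (Set.range fun i => y i ^ N)))).restrictScalars k).finrank_eq
  have := hb N
  rw [he] at this
  rw [add_mul, one_mul]
  omega

/-- The same, with a threshold and the finiteness of the quotients. -/
theorem exists_finrank_lt [IsAdicComplete (maximalIdeal S) S]
    (hres : ∀ a : S, ∃ c, a - algebraMap k S c ∈ maximalIdeal S)
    (y : Fin d → S) (hy : ∀ i, y i ∈ maximalIdeal S)
    (hfin : Module.Finite k (S ⧸ Ideal.span (Set.range y))) {L : ℕ}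
    (hL : emult k (List.ofFn y) S = L) :
    ∃ N₀ : ℕ, ∀ N ≥ N₀, Module.Finite k (S ⧸ Ideal.span (Set.range fun i => y i ^ N)) ∧
      Module.finrank k (S ⧸ Ideal.span (Set.range fun i => y i ^ N)) < (L + 1) * N ^ d := by
  obtain ⟨N₀, h⟩ := eventually_atTop.1 (eventually_finrank_lt hres y hy hL)
  exact ⟨N₀, fun N hN => ⟨finite_quot_span_powers y N, h N hN⟩⟩

end Complete

end Vale.Agent.P202.Zero
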