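import Vale.Agent.P202.Zero.Approx.Main
import Vale.Agent.P202.Zero.Descent.Main
import Vale.Agent.P202.Zero.Descent.Data
import Vale.Agent.P202.Zero.Descent.FiniteField
import Vale.Agent.P202.Zero.Reduce.General

/-!
# P202: Lech's inequality in equal characteristic zero
-/

noncomputable section

namespace Vale.Agent.P202.Zero

open IsLocalRing Filter
open scoped ENNReal

universe u

/-- Lech's inequality for a finite flat extension of a complete ring over an algebraically closed
coefficient field of characteristic zero. -/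
theorem lech_of_coefficientField {k : Type u} [Field k] [CharZero k] [IsAlgClosed k]
    {A : Type u} [CommRing A] [IsNoetherianRing A] [IsLocalRing A]
    [IsAdicComplete (maximalIdeal A) A] [Algebra k A]
    (hres : ∀ a : A, ∃ c, a - algebraMap k A c ∈ maximalIdeal A)
    (B : Type u) [CommRing B] [IsLocalRing B] [Algebra A B] [IsLocalHom (algebraMap A B)]
    [Module.Finite A B] [Module.Flat A B] [Algebra k B] [IsScalarTower k A B] :
    limsup (hsSeq A) atTop ≤ liminf (hsSeq B) atTop := by
  classical
  obtain ⟨φ, hC, hfinA, m, z, r, e, hz0, hz, hgen, hred, hup, c, Θ, v, hc, hv⟩ :=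
    exists_source_data k A hres
  obtain ⟨s, b, y, L, hb, hbt, hy, hym, hresB, -, hyfin, hL, hlow⟩ :=
    exists_target_data k A hres B
  let : Algebra (PS k (dimNat A)) A := φ.toAlgebra
  have : IsNoetherianRing B := IsNoetherianRing.of_finite A B
  have : IsAdicComplete (maximalIdeal B) B := isAdicComplete_maximalIdeal_of_finite A B
  refine hup.trans (le_trans ?_ hlow)
  rw [Nat.cast_le]
  obtain ⟨N₀, hN₀⟩ := exists_finrank_lt hresB y hym hyfin hL
  set N := max N₀ 1
  obtain ⟨hfin, hlt⟩ := hN₀ N (le_max_left _ _)
  set I := Ideal.span (Set.range fun l => y l ^ N)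
  obtain ⟨M, hM⟩ := exists_pow_le_of_finite (k := k) I
  have hmap : (maximalIdeal A).map (algebraMap A B) ≤ maximalIdeal B :=
    IsLocalRing.map_maximalIdeal_le (algebraMap A B)
  have hMI : (varIdeal A (fun i => (MvPowerSeries.X i : PS k (dimNat A))) ^ M).map
      (algebraMap A B) ≤ I := by
    rw [Ideal.map_pow]
    refine (Ideal.pow_right_mono ((Ideal.map_mono ?_).trans hmap) M).trans hM
    rw [← hgen, genIdeal]
    exact le_sup_left
  set bQ := Module.finBasis k (B ⧸ I)
  choose u hu using fun t => Ideal.Quotient.mk_surjective (I := I) (bQ t)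
  have hspan : ∀ w : B, ∃ a : Fin (Module.finrank k (B ⧸ I)) → k,
      w - ∑ t, algebraMap A B (algebraMap (PS k (dimNat A)) A (MvPowerSeries.C (a t))) * u t ∈ I := by
    intro w
    refine ⟨fun t => bQ.repr (Ideal.Quotient.mk I w) t, ?_⟩
    rw [← Ideal.Quotient.eq, map_sum]
    conv_lhs => rw [← bQ.sum_repr (Ideal.Quotient.mk I w)]
    refine Finset.sum_congr rfl fun t _ => ?_
    rw [show algebraMap (PS k (dimNat A)) A (MvPowerSeries.C (bQ.repr (Ideal.Quotient.mk I w) t)) =
      algebraMap k A (bQ.repr (Ideal.Quotient.mk I w) t) from hC _,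
      ← IsScalarTower.algebraMap_apply k A B, map_mul, hu, Algebra.smul_def,
      IsScalarTower.algebraMap_apply k B (B ⧸ I), Ideal.Quotient.algebraMap_eq]
  have key := le_of_data (k := k) (d := dimNat A) (approx k (dimNat A))
    (fun T => exists_finite_reduction T) z hz0 hz hred hc Θ v hv b hb
    (fun j hj => by
      obtain ⟨t, ht⟩ := hbt j hj
      exact ⟨t, hgen.symm ▸ ht⟩)
    y (fun l => hgen.symm ▸ hy l) (le_max_right _ _) hMI u
    (fun i j => hspan _) (fun q t => hspan _)
  exact Nat.lt_succ_iff.1
    (Nat.lt_of_mul_lt_mul_right (a := N ^ dimNat A) (lt_of_le_of_lt key hlt))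

theorem finiteLech : FiniteLech.{u} := by
  intro A _ _ _ _ _ _ B _ _ _ _ _ _
  obtain ⟨σ, hσ⟩ := exists_coefficientField' A
  have : CharZero (ResidueField A) :=
    charZero_of_injective_ringHom ((residue A).comp (algebraMap ℚ A)).injective
  let : Algebra (ResidueField A) A := σ.toAlgebra
  let : Algebra (ResidueField A) B := ((algebraMap A B).comp σ).toAlgebra
  have : IsScalarTower (ResidueField A) A B := IsScalarTower.of_algebraMap_eq fun _ => rfl
  exact lech_of_coefficientField (fun a => ⟨residue A a, by
    rw [← residue_eq_zero_iff, map_sub, RingHom.algebraMap_toAlgebra, hσ, sub_self]⟩) B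

/-- Lech's inequality for every flat local map out of a Noetherian local ring containing the
rational numbers. -/
theorem lech_zero (R : Type u) [CommRing R] [IsNoetherianRing R] [IsLocalRing R] [Algebra ℚ R]
    (S : Type u) [CommRing S] [IsNoetherianRing S] [IsLocalRing S] [Algebra R S]
    [IsLocalHom (algebraMap R S)] [Module.Flat R S] :
    limsup (hsSeq R) atTop ≤ liminf (hsSeq S) atTop :=
  lech_of_main finiteLech R S

end Vale.Agent.P202.Zero
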