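import Vale.Agent.P202.Zero.Approx.Defs
import Vale.Agent.P202.RingSide.Hilbert
import Vale.Agent.P202.Core

/-!
# P202, equal characteristic zero: colengths are determined by finitely many coefficients

The cokernel of a matrix over power series which contains a power of the maximal ideal has the same
dimension as that of a matrix over another field whose entries have the same low coefficients.
-/

noncomputable section

namespace Vale.Agent.P202.Zero

open IsLocalRing

universe u

variable {k : Type u} [Field k]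

/-- The rank of a matrix is kept by ring homomorphisms defined on finitely many given scalars. -/
theorem exists_finset_rank_eq {m n : Type*} [Fintype m] [Fintype n] (A : Matrix m n k) :
    ∃ T : Finset k, ∀ D : Subring k, (T : Set k) ⊆ (D : Set k) →
      ∀ (κ : Type u) [Field κ] (ψ : D →+* κ) (A' : Matrix m n κ),
        (∀ i j, ∃ h : A i j ∈ D, ψ ⟨A i j, h⟩ = A' i j) → A'.rank = A.rank := by
  classical
  let e := (Module.finBasis k (LinearMap.range A.mulVecLin)).equivFun
  let g : (n → k) →ₗ[k] (Fin A.rank → k) := e.toLinearMap.comp A.mulVecLin.rangeRestrict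
  let f : (Fin A.rank → k) →ₗ[k] (m → k) :=
    (LinearMap.range A.mulVecLin).subtype.comp e.symm.toLinearMap
  have hg : Function.Surjective g := e.surjective.comp (LinearMap.surjective_rangeRestrict _)
  have hf : Function.Injective f := (Submodule.injective_subtype _).comp e.symm.injective
  have hfg : f.comp g = A.mulVecLin := LinearMap.ext fun v => by
    show ((e.symm (e (A.mulVecLin.rangeRestrict v)) : LinearMap.range A.mulVecLin) : m → k) = _
    rw [e.symm_apply_apply]
    rfl
  obtain ⟨f', hf'⟩ := f.exists_leftInverse_of_injective (LinearMap.ker_eq_bot.2 hf)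
  obtain ⟨g', hg'⟩ := g.exists_rightInverse_of_surjective (LinearMap.range_eq_top.2 hg)
  set U := LinearMap.toMatrix' f
  set W := LinearMap.toMatrix' g
  set U' := LinearMap.toMatrix' f'
  set W' := LinearMap.toMatrix' g'
  have hUW : U * W = A := by
    rw [← LinearMap.toMatrix'_comp, hfg]
    exact LinearMap.toMatrix'_toLin' A
  have hU : U' * U = 1 := by rw [← LinearMap.toMatrix'_comp, hf', LinearMap.toMatrix'_id]
  have hW : W * W' = 1 := by rw [← LinearMap.toMatrix'_comp, hg', LinearMap.toMatrix'_id]
  refine ⟨(Finset.univ.image fun p : m × Fin A.rank => U p.1 p.2) ∪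
    (Finset.univ.image fun p : Fin A.rank × m => U' p.1 p.2) ∪
    (Finset.univ.image fun p : Fin A.rank × n => W p.1 p.2) ∪
    (Finset.univ.image fun p : n × Fin A.rank => W' p.1 p.2), fun D hD κ _ ψ A' hA => ?_⟩
  simp only [Finset.coe_union, Finset.coe_image, Finset.coe_univ, Set.image_univ,
    Set.union_subset_iff, Set.range_subset_iff, SetLike.mem_coe, Prod.forall] at hD
  obtain ⟨⟨⟨hUD, hU'D⟩, hWD⟩, hW'D⟩ := hD
  let UD : Matrix m (Fin A.rank) D := fun i j => ⟨U i j, hUD i j⟩
  let U'D : Matrix (Fin A.rank) m D := fun i j => ⟨U' i j, hU'D i j⟩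
  let WD : Matrix (Fin A.rank) n D := fun i j => ⟨W i j, hWD i j⟩
  let W'D : Matrix n (Fin A.rank) D := fun i j => ⟨W' i j, hW'D i j⟩
  let AD : Matrix m n D := fun i j => ⟨A i j, (hA i j).choose⟩
  have hinj : Function.Injective (fun x : D => (x : k)) := Subtype.val_injective
  have h1 : UD * WD = AD := by
    refine Matrix.map_injective (f := D.subtype) hinj ?_
    show (UD * WD).map D.subtype = AD.map D.subtype
    rw [Matrix.map_mul]
    exact hUW
  have h2 : U'D * UD = 1 := by
    refine Matrix.map_injective (f := D.subtype) hinj ?_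
    show (U'D * UD).map D.subtype = Matrix.map 1 D.subtype
    rw [Matrix.map_mul, Matrix.map_one _ (map_zero _) (map_one _)]
    exact hU
  have h3 : WD * W'D = 1 := by
    refine Matrix.map_injective (f := D.subtype) hinj ?_
    show (WD * W'D).map D.subtype = Matrix.map 1 D.subtype
    rw [Matrix.map_mul, Matrix.map_one _ (map_zero _) (map_one _)]
    exact hW
  have hA' : AD.map ψ = A' := Matrix.ext fun i j => (hA i j).choose_spec
  have e1 : UD.map ψ * WD.map ψ = A' := by rw [← hA', ← h1, Matrix.map_mul]
  have e2 : U'D.map ψ * UD.map ψ = 1 := by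
    rw [← Matrix.map_mul, h2, Matrix.map_one _ (map_zero _) (map_one _)]
  have e3 : WD.map ψ * W'D.map ψ = 1 := by
    rw [← Matrix.map_mul, h3, Matrix.map_one _ (map_zero _) (map_one _)]
  refine le_antisymm ?_ ?_
  · rw [← e1]
    exact (Matrix.rank_mul_le_left _ _).trans
      ((Matrix.rank_le_card_width _).trans (Fintype.card_fin _).le)
  · have h : U'D.map ψ * A' * W'D.map ψ = 1 := by
      rw [← e1, ← Matrix.mul_assoc, e2, Matrix.one_mul, e3]
    calc A.rank = (U'D.map ψ * A' * W'D.map ψ).rank := by
          rw [h, Matrix.rank_one, Fintype.card_fin]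
      _ ≤ (U'D.map ψ * A').rank := Matrix.rank_mul_le_left _ _
      _ ≤ A'.rank := Matrix.rank_mul_le_right _ _

variable {n : ℕ}

/-- The exponents of degree less than `M`. -/
def lowExp (n M : ℕ) : Finset (Fin n →₀ ℕ) :=
  (Finset.Iic (Finsupp.equivFunOnFinite.symm fun _ => M)).filter fun e => e.degree < M

theorem mem_lowExp {M : ℕ} {e : Fin n →₀ ℕ} : e ∈ lowExp n M ↔ e.degree < M := by
  rw [lowExp, Finset.mem_filter, and_iff_right_iff_imp, Finset.mem_Iic]
  exact fun h i => (Finsupp.le_degree i e).trans h.le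

variable {α β : Type*}

/-- The coefficients of degree less than `M`. -/
def trunc (α : Type*) (M : ℕ) : (α → PS k n) →ₗ[k] (α × lowExp n M → k) :=
  LinearMap.pi fun p => (MvPowerSeries.coeff (p.2 : Fin n →₀ ℕ)).comp (LinearMap.proj p.1)

theorem trunc_apply (M : ℕ) (v : α → PS k n) (p : α × lowExp n M) :
    trunc α M v p = MvPowerSeries.coeff (p.2 : Fin n →₀ ℕ) (v p.1) := rfl

theorem trunc_surjective (M : ℕ) : Function.Surjective (trunc (k := k) (n := n) α M) := by
  classical
  intro w
  let v : α → PS k n := fun a e => if h : e ∈ lowExp n M then w (a, ⟨e, h⟩) else 0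
  refine ⟨v, funext fun p => ?_⟩
  rw [trunc_apply, MvPowerSeries.coeff_apply]
  exact dif_pos p.2.2

/-- The matrix of a matrix of series on the coefficients of degree less than `M`. -/
def truncMat (P : Matrix α β (PS k n)) (M : ℕ) :
    Matrix (α × lowExp n M) (β × lowExp n M) k := fun p q =>
  if (q.2 : Fin n →₀ ℕ) ≤ (p.2 : Fin n →₀ ℕ) then
    MvPowerSeries.coeff ((p.2 : Fin n →₀ ℕ) - (q.2 : Fin n →₀ ℕ)) (P p.1 q.1) else 0

variable [Fintype β]

theorem trunc_mulVec (P : Matrix α β (PS k n)) (M : ℕ) (u : β → PS k n) :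
    trunc α M (P.mulVec u) = (truncMat P M).mulVec (trunc β M u) := by
  classical
  funext p
  simp only [trunc_apply, Matrix.mulVec, dotProduct, map_sum, MvPowerSeries.coeff_mul,
    Fintype.sum_prod_type, truncMat, ite_mul, zero_mul]
  refine Finset.sum_congr rfl fun b _ => ?_
  rw [Finset.sum_coe_sort (lowExp n M) fun f =>
    if f ≤ (p.2 : Fin n →₀ ℕ) then
      MvPowerSeries.coeff ((p.2 : Fin n →₀ ℕ) - f) (P p.1 b) * MvPowerSeries.coeff f (u b) else 0,
    ← Finset.sum_filter]
  refine Finset.sum_nbij' (fun q => q.2) (fun f => ((p.2 : Fin n →₀ ℕ) - f, f)) ?_ ?_ ?_ ?_ ?_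
  · intro q hq
    rw [Finset.HasAntidiagonal.mem_antidiagonal] at hq
    have hle : q.2 ≤ (p.2 : Fin n →₀ ℕ) := hq ▸ le_add_self
    refine Finset.mem_filter.2 ⟨mem_lowExp.2 ?_, hle⟩
    have := mem_lowExp.1 p.2.2
    rw [← hq, map_add] at this
    omega
  · intro f hf
    rw [Finset.HasAntidiagonal.mem_antidiagonal]
    exact tsub_add_cancel_of_le (Finset.mem_filter.1 hf).2
  · intro q hq
    rw [Finset.HasAntidiagonal.mem_antidiagonal] at hq
    simp [← hq]
  · intro f _
    rfl
  · intro q hq
    rw [Finset.HasAntidiagonal.mem_antidiagonal] at hq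
    simp [← hq]

/-- The image of a column space under truncation. -/
theorem map_trunc_range (P : Matrix α β (PS k n)) (M : ℕ) :
    Submodule.map (trunc α M) ((LinearMap.range P.mulVecLin).restrictScalars k) =
      LinearMap.range (truncMat P M).mulVecLin := by
  apply le_antisymm
  · rintro _ ⟨_, ⟨u, rfl⟩, rfl⟩
    exact ⟨trunc β M u, (trunc_mulVec P M u).symm⟩
  · rintro _ ⟨w, rfl⟩
    obtain ⟨u, rfl⟩ := trunc_surjective (k := k) (n := n) (α := β) M w
    exact ⟨P.mulVec u, ⟨u, rfl⟩, trunc_mulVec P M u⟩

variable [Fintype α]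

/-- Dimension of the cokernel modulo the coefficients of degree at least `M`. -/
theorem finrank_quot_trunc (P : Matrix α β (PS k n)) (M : ℕ) :
    Module.Finite k ((α → PS k n) ⧸
        ((LinearMap.range P.mulVecLin).restrictScalars k ⊔ LinearMap.ker (trunc α M))) ∧
      Module.finrank k ((α → PS k n) ⧸
        ((LinearMap.range P.mulVecLin).restrictScalars k ⊔ LinearMap.ker (trunc α M))) +
          (truncMat P M).rank = Fintype.card (α × lowExp n M) := by
  set R := LinearMap.range (truncMat P M).mulVecLin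
  let F := R.mkQ.comp (trunc (k := k) (n := n) α M)
  have hker : LinearMap.ker F =
      (LinearMap.range P.mulVecLin).restrictScalars k ⊔ LinearMap.ker (trunc α M) := by
    rw [LinearMap.ker_comp, Submodule.ker_mkQ, ← Submodule.comap_map_eq, map_trunc_range]
  let e := (Submodule.quotEquivOfEq _ _ hker.symm).trans (F.quotKerEquivOfSurjective
    ((Submodule.mkQ_surjective R).comp (trunc_surjective M)))
  refine ⟨Module.Finite.equiv e.symm, ?_⟩
  rw [e.finrank_eq, Matrix.rank, ← Module.finrank_fintype_fun_eq_card k]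
  exact Submodule.finrank_quotient_add_finrank R

/-- The vectors without coefficients of degree less than `M`. -/
theorem ker_trunc (M : ℕ) : LinearMap.ker (trunc (k := k) (n := n) α M) =
    (maximalIdeal (PS k n) ^ M • ⊤ : Submodule (PS k n) (α → PS k n)).restrictScalars k := by
  classical
  apply le_antisymm
  · intro v hv
    rw [Submodule.restrictScalars_mem]
    have hsum : v = ∑ a, v a • (Pi.single a 1 : α → PS k n) := by
      funext b
      simp [Finset.sum_apply, Pi.single_apply]
    rw [hsum]
    refine Submodule.sum_mem _ fun a _ => Submodule.smul_mem_smul ?_ Submodule.mem_top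
    rw [maximalIdeal_mvPowerSeries]
    exact mem_span_X_pow fun t ht =>
      congrFun (LinearMap.mem_ker.1 hv) (a, ⟨t, mem_lowExp.2 ht⟩)
  · intro v hv
    rw [Submodule.restrictScalars_mem] at hv
    rw [LinearMap.mem_ker]
    funext p
    have h : v p.1 ∈ maximalIdeal (PS k n) ^ M := by
      refine Submodule.smul_induction_on hv (fun a ha w _ => ?_) (fun x y hx hy => ?_)
      · exact Ideal.mul_mem_right _ _ ha
      · exact add_mem hx hy
    exact coeff_eq_zero_of_mem_maximalIdeal_pow h _ (mem_lowExp.1 p.2.2)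

/-- A cokernel killed by `m ^ M` has the same dimension after changing coefficients of degree
above `M` and moving the others to another field; finitely many scalars suffice. -/
theorem exists_finset_finrank_coker (P : Matrix α β (PS k n)) (M : ℕ)
    (hP : maximalIdeal (PS k n) ^ M • (⊤ : Submodule (PS k n) (α → PS k n)) ≤
      LinearMap.range P.mulVecLin) :
    ∃ T : Finset k, ∀ D : Subring k, (T : Set k) ⊆ (D : Set k) →
      ∀ (κ : Type u) [Field κ] (ψ : D →+* κ) (P' : Matrix α β (PS κ n)),
        (∀ a b, JetEq D ψ (M + 1) (P a b) (P' a b)) →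
          maximalIdeal (PS κ n) ^ M • (⊤ : Submodule (PS κ n) (α → PS κ n)) ≤
              LinearMap.range P'.mulVecLin ∧
            Module.Finite κ ((α → PS κ n) ⧸ LinearMap.range P'.mulVecLin) ∧
            Module.finrank κ ((α → PS κ n) ⧸ LinearMap.range P'.mulVecLin) =
              Module.finrank k ((α → PS k n) ⧸ LinearMap.range P.mulVecLin) := by
  classical
  obtain ⟨T0, hT0⟩ := exists_finset_rank_eq (truncMat P M)
  obtain ⟨T1, hT1⟩ := exists_finset_rank_eq (truncMat P (M + 1))
  refine ⟨T0 ∪ T1, fun D hD κ _ ψ P' hjet => ?_⟩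
  rw [Finset.coe_union, Set.union_subset_iff] at hD
  have hentry : ∀ N ≤ M + 1, ∀ p q, ∃ h : truncMat P N p q ∈ D,
      ψ ⟨truncMat P N p q, h⟩ = truncMat P' N p q := by
    intro N hN p q
    by_cases hle : (q.2 : Fin n →₀ ℕ) ≤ (p.2 : Fin n →₀ ℕ)
    · obtain ⟨h, hh⟩ := hjet p.1 q.1 ((p.2 : Fin n →₀ ℕ) - (q.2 : Fin n →₀ ℕ))
        (lt_of_lt_of_le (lt_of_le_of_lt (Finsupp.degree_mono tsub_le_self) (mem_lowExp.1 p.2.2)) hN)
      simp only [truncMat, if_pos hle]
      exact ⟨h, hh⟩
    · simp only [truncMat, if_neg hle]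
      exact ⟨zero_mem D, map_zero ψ⟩
  have r0 := hT0 D hD.1 κ ψ (truncMat P' M) (hentry M M.le_succ)
  have r1 := hT1 D hD.2 κ ψ (truncMat P' (M + 1)) (hentry (M + 1) le_rfl)
  obtain ⟨f0, d0⟩ := finrank_quot_trunc P M
  obtain ⟨f1, d1⟩ := finrank_quot_trunc P (M + 1)
  obtain ⟨f0', d0'⟩ := finrank_quot_trunc P' M
  obtain ⟨f1', d1'⟩ := finrank_quot_trunc P' (M + 1)
  -- over `k` both truncations are the cokernel
  have habs : ∀ N, M ≤ N → (LinearMap.range P.mulVecLin).restrictScalars k ⊔
      LinearMap.ker (trunc α N) = (LinearMap.range P.mulVecLin).restrictScalars k := fun N hN => by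
    rw [sup_eq_left, ker_trunc]
    intro v hv
    exact hP (Submodule.smul_mono_left (Ideal.pow_le_pow_right hN) hv)
  let E := Submodule.Quotient.restrictScalarsEquiv k (LinearMap.range P.mulVecLin)
  rw [habs M le_rfl, E.finrank_eq] at d0
  rw [habs (M + 1) M.le_succ, E.finrank_eq] at d1
  -- over the other field they therefore agree
  set N' := (LinearMap.range P'.mulVecLin).restrictScalars κ
  have hle : N' ⊔ LinearMap.ker (trunc α (M + 1)) ≤ N' ⊔ LinearMap.ker (trunc α M) := by
    refine sup_le_sup_left ?_ _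
    rw [ker_trunc, ker_trunc]
    intro v hv
    exact Submodule.smul_mono_left (Ideal.pow_le_pow_right M.le_succ) hv
  have hkey : LinearMap.ker (trunc (k := κ) (n := n) α M) ≤
      N' ⊔ LinearMap.ker (trunc α (M + 1)) := by
    intro v hv
    have hinj := (LinearMap.injective_iff_surjective_of_finrank_eq_finrank (by omega)).2
      (Submodule.factor_surjective hle)
    rw [← Submodule.Quotient.mk_eq_zero]
    refine hinj ?_
    rw [map_zero, ← Submodule.mkQ_apply]
    exact (Submodule.Quotient.mk_eq_zero _).2 (Submodule.mem_sup_right hv)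
  have hsub : maximalIdeal (PS κ n) ^ M • (⊤ : Submodule (PS κ n) (α → PS κ n)) ≤
      LinearMap.range P'.mulVecLin := by
    refine Submodule.le_of_le_smul_of_le_jacobson_bot (IsNoetherian.noetherian _)
      (maximalIdeal_le_jacobson ⊥) fun v hv => ?_
    obtain ⟨a, ha, b, hb, rfl⟩ :=
      Submodule.mem_sup.1 (hkey ((ker_trunc (k := κ) (n := n) (α := α) M).ge hv))
    refine Submodule.add_mem_sup ha ?_
    rw [ker_trunc, Submodule.restrictScalars_mem, pow_succ', Submodule.mul_smul] at hb
    exact hb
  have habs' : N' ⊔ LinearMap.ker (trunc α M) = N' := by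
    rw [sup_eq_left, ker_trunc]
    exact fun v hv => hsub hv
  let E' := Submodule.Quotient.restrictScalarsEquiv κ (LinearMap.range P'.mulVecLin)
  rw [habs'] at f0'
  rw [habs', E'.finrank_eq] at d0'
  exact ⟨hsub, Module.Finite.equiv (E'.restrictScalars κ), by omega⟩

/-- The ideal of the `Q`-th powers of the variables contains a power of the maximal ideal. -/
theorem span_pow_le_span_pow {A : Type*} [CommRing A] {d : ℕ} (x : Fin d → A) (Q : ℕ) :
    Ideal.span (Set.range x) ^ (d * Q + 1) ≤ Ideal.span (Set.range fun i => x i ^ Q) := by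
  induction d with
  | zero => simp
  | succ d ih =>
    have hx : Ideal.span (Set.range x) =
        Ideal.span {x 0} ⊔ Ideal.span (Set.range fun i : Fin d => x i.succ) := by
      conv_lhs => rw [← Fin.cons_self_tail x, Fin.range_cons, Ideal.span_insert]
      rfl
    rw [hx, show (d + 1) * Q + 1 = Q + (d * Q + 1) by ring]
    refine Ideal.sup_pow_add_le_pow_sup_pow.trans (sup_le ?_ ((ih _).trans ?_))
    · rw [Ideal.span_singleton_pow, Ideal.span_singleton_le_iff_mem]
      exact Ideal.subset_span ⟨0, rfl⟩
    · refine Ideal.span_mono ?_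
      rintro _ ⟨i, rfl⟩
      exact ⟨i.succ, rfl⟩

/-- The same, the hypothesis being that the `Q`-th powers of the variables kill the cokernel. -/
theorem exists_finset_finrank_coker_of_pow [DecidableEq α] (P : Matrix α β (PS k n)) (Q : ℕ)
    (hP : ∀ i a, (Pi.single a (MvPowerSeries.X i ^ Q) : α → PS k n) ∈
      LinearMap.range P.mulVecLin) :
    ∃ T : Finset k, ∀ D : Subring k, (T : Set k) ⊆ (D : Set k) →
      ∀ (κ : Type u) [Field κ] (ψ : D →+* κ) (P' : Matrix α β (PS κ n)),
        (∀ a b, JetEq D ψ (n * Q + 2) (P a b) (P' a b)) →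
            Module.Finite κ ((α → PS κ n) ⧸ LinearMap.range P'.mulVecLin) ∧
            Module.finrank κ ((α → PS κ n) ⧸ LinearMap.range P'.mulVecLin) =
              Module.finrank k ((α → PS k n) ⧸ LinearMap.range P.mulVecLin) := by
  have hM : maximalIdeal (PS k n) ^ (n * Q + 1) • (⊤ : Submodule (PS k n) (α → PS k n)) ≤
      LinearMap.range P.mulVecLin := by
    rw [maximalIdeal_mvPowerSeries]
    refine (Submodule.smul_mono_left (span_pow_le_span_pow _ Q)).trans (Submodule.smul_le.2 ?_)
    intro a ha v _
    induction ha using Submodule.span_induction with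
    | mem z hz =>
      obtain ⟨i, rfl⟩ := hz
      have hv : (MvPowerSeries.X i : PS k n) ^ Q • v =
          ∑ a, v a • (Pi.single a (MvPowerSeries.X i ^ Q) : α → PS k n) := by
        funext b
        simp [Finset.sum_apply, Pi.single_apply, mul_comm]
      show (MvPowerSeries.X i : PS k n) ^ Q • v ∈ _
      rw [hv]
      exact Submodule.sum_mem _ fun a _ => Submodule.smul_mem _ _ (hP i a)
    | zero => rw [zero_smul]; exact zero_mem _
    | add x y _ _ hx hy => rw [add_smul]; exact add_mem hx hy
    | smul c x _ hx => rw [smul_assoc]; exact Submodule.smul_mem _ c hx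
  obtain ⟨T, hT⟩ := exists_finset_finrank_coker P _ hM
  exact ⟨T, fun D hD κ _ ψ P' h => (hT D hD κ ψ P' h).2⟩

end Vale.Agent.P202.Zero
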